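import Vale.Agent.P257.Z.Final
import Vale.Agent.P257.X.PF

open CategoryTheory Limits Pretriangulated MonoidalCategory MvPolynomial TensorProduct
  Vale.Agent.P257.S Vale.Agent.P257.Z

universe v u

theorem Vale.Agent.Results.P257.SmithToda.result (p : ℕ) [Fact p.Prime] (R : Type) [CommRing R]
    [(Ideal.span {(p : ℤ)}).IsPrime] [IsLocalization.AtPrime R (Ideal.span {(p : ℤ)})]
    (B : BPBP p (MvPolynomial ℕ R)) (hB : B.v = gen (p : R))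
    (T : Type u) [Category.{v} T] [HasZeroObject T] [Preadditive T]
    [HasShift T ℤ] [∀ n : ℤ, (shiftFunctor T n).Additive] [Pretriangulated T] [IsTriangulated T]
    [HasCountableCoproducts T] [MonoidalCategory T] (hT : IsExactTensor T)
    (h : T ⥤ ModuleCat.{0} (MvPolynomial ℕ R)) [h.IsHomological]
    [PreservesColimitsOfShape (Discrete ℕ) h] (C : ∀ X, Comod B (h.obj X))
    (hh : IsBPHomology (𝟙_ T) h C) (κ : ∀ X Y, h.obj X → h.obj Y → h.obj (X ⊗ Y))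
    (g : h.obj (𝟙_ T)) (hκ : IsProduct h C κ g)
    (d : ∀ X : T, ℕ → ℕ → ℤ → MvPolynomial (ℕ × ℕ) (MvPolynomial ℕ R) ⊗[MvPolynomial ℕ R] h.obj X →
      MvPolynomial (ℕ × ℕ) (MvPolynomial ℕ R) ⊗[MvPolynomial ℕ R] h.obj X → Prop)
    (hd : IsANSS h C κ (IsFin p) d) :
    let V : ℕ → Prop := fun n => ∃ (X : T) (x : h.obj X), IsFin p X ∧ IsCyclic (C X) (n + 1) 0 x
    (11 ≤ p → (∃ (b : MvPolynomial (ℕ × ℕ) (MvPolynomial ℕ R)) (c : ℤ), ¬ (p : ℤ) ∣ c ∧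
        IsCocycle (C (𝟙_ T)) 2 (p ^ 2 * vdeg p 1) (b ⊗ₜ g) ∧
        d (𝟙_ T) (2 * (p - 1) ^ 2 + 1) (2 * p - 1) ((p ^ 3 - p ^ 2 + 1) * vdeg p 1)
          ((pow B 2 b (p - 1) * X (2 * (p - 1), 0)) ⊗ₜ g)
          ((c • pow B 2 (b₁ p (MvPolynomial ℕ R)) (p ^ 2 - p + 1)) ⊗ₜ g)) → V 4) ∧
      ∀ m n, m ≤ n → V n → V m := by
  have hR := isZp_of_isLocalization p R
  refine ⟨fun hp ⟨b, c, hc, hb, ht⟩ => ?_, fun m n hmn ⟨X, x, hX⟩ => ?_⟩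
  · exact exists_V4_of_pfacts hp (Vale.Agent.P257.X.pfacts hp) hR hB hh hT hκ hd b c hc hb ht
  · exact (structure_theorem hR hB hh).1 m n hmn ⟨X, x, hX⟩
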