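import Vale.Agent.P257.Z.Final
import Vale.Agent.P257.X.PF
import Vale.Agent.P257.Bdl.B1

/-!
# P257: the structure of Smith-Toda complexes, and `V(4)` at every prime `p ≥ 11`

`T` is a triangulated category with a `BP`-homology `h` (values in the graded comodules `C`) and
sphere `S`. (1)-(3) are the structure theorems for the objects `V(n)` of `T`. (4) If `T` has an
exact tensor product with unit sphere, an external product `κ` and the multiplicative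
Adams-Novikov spectral sequence `d`, and Toda's differential holds, then a `V(4)` exists.
-/

open CategoryTheory Limits Pretriangulated MonoidalCategory MvPolynomial TensorProduct
  Vale.Agent.P257.S Vale.Agent.P257.Z

universe v u

theorem Vale.Agent.Results.P257.StructureVFour.result (p : ℕ) [Fact p.Prime] (R : Type)
    [CommRing R] [(Ideal.span {(p : ℤ)}).IsPrime]
    [IsLocalization.AtPrime R (Ideal.span {(p : ℤ)})]
    (B : BPBP p (MvPolynomial ℕ R)) (hB : B.v = gen (p : R))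
    (T : Type u) [Category.{v} T] [HasZeroObject T] [Preadditive T]
    [HasShift T ℤ] [∀ n : ℤ, (shiftFunctor T n).Additive] [Pretriangulated T] [IsTriangulated T]
    [HasCountableCoproducts T] (h : T ⥤ ModuleCat.{0} (MvPolynomial ℕ R))
    [h.IsHomological] [PreservesColimitsOfShape (Discrete ℕ) h] (C : ∀ X, Comod B (h.obj X)) :
    (∃! B : BPBP p (MvPolynomial ℕ R), B.v = gen (p : R)) ∧
    (∀ S : T, IsBPHomology S h C →
      let L : T → Prop := fun X => ∀ m : ℕ, m.Coprime p → IsIso (m • 𝟙 X)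
      let F : T → Prop := fun X => ∃ (A B : T) (ι : A ⟶ B) (i : X ⟶ B) (r : B ⟶ X),
        (∀ P : T → Prop, (∀ Y, IsZero Y → P Y) →
          (∀ D ∈ distTriang T, (∃ n : ℤ, Nonempty (D.obj₁ ≅ S⟦n⟧)) → P D.obj₂ → P D.obj₃) → P A) ∧
        L B ∧ (∀ Z, L Z → Function.Bijective fun g : B ⟶ Z => ι ≫ g) ∧ i ≫ r = 𝟙 X
      let V : ℕ → ℤ → (X : T) → h.obj X → Prop := fun n k X g => F X ∧ IsCyclic (C X) (n + 1) k g
      (∀ m n : ℕ, m ≤ n → (∃ X g, V n 0 X g) → ∃ X g, V m 0 X g) ∧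
      (∀ (n : ℕ) (X : T), (∃ g, V (n + 1) 0 X g) ↔ ∃ D ∈ distTriang T, ∃ w y, D.obj₃ = X ∧
        V n (vdeg p (n + 1)) D.obj₁ w ∧ V n 0 D.obj₂ y ∧
          (h.map D.mor₁).hom w = B.v (n + 1) • y) ∧
      ∀ (n : ℕ) (X : T) (x : h.obj X), F X → x ∈ (C X).deg 0 →
        (∀ j < ∑ i ∈ Finset.range (n + 1), (vdeg p i + 1),
          (∀ y ∈ (C X).deg j, ∃ a : MvPolynomial ℕ R, y = a • x) ∧
          ∀ a : MvPolynomial ℕ R, a.IsWeightedHomogeneous (fun i => vdeg p (i + 1)) j →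
            (a • x = 0 ↔ a ∈ Ideal.span {b | ∃ i < n + 1, b = B.v i})) →
        ∃ (Y : T) (f : Y ⟶ X) (y : h.obj Y), V n 0 Y y ∧ (h.map f).hom y = x) ∧
    (∀ [MonoidalCategory T], IsExactTensor T → IsBPHomology (𝟙_ T) h C →
      ∀ (κ : ∀ X Y, h.obj X → h.obj Y → h.obj (X ⊗ Y)) (g : h.obj (𝟙_ T)), IsProduct h C κ g →
      ∀ d : ∀ X : T, ℕ → ℕ → ℤ → MvPolynomial (ℕ × ℕ) (MvPolynomial ℕ R) ⊗[MvPolynomial ℕ R] h.obj X →
        MvPolynomial (ℕ × ℕ) (MvPolynomial ℕ R) ⊗[MvPolynomial ℕ R] h.obj X → Prop,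
      IsANSS h C κ (IsFin p) d → 11 ≤ p →
      (∃ (b : MvPolynomial (ℕ × ℕ) (MvPolynomial ℕ R)) (c : ℤ), ¬ (p : ℤ) ∣ c ∧
        IsCocycle (C (𝟙_ T)) 2 (p ^ 2 * vdeg p 1) (b ⊗ₜ g) ∧
        d (𝟙_ T) (2 * (p - 1) ^ 2 + 1) (2 * p - 1) ((p ^ 3 - p ^ 2 + 1) * vdeg p 1)
          ((pow B 2 b (p - 1) * X (2 * (p - 1), 0)) ⊗ₜ g)
          ((c • pow B 2 (b₁ p (MvPolynomial ℕ R)) (p ^ 2 - p + 1)) ⊗ₜ g)) →
      ∃ (X : T) (x : h.obj X), IsFin p X ∧ IsCyclic (C X) 5 0 x) := by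
  have hR := isZp_of_isLocalization p R
  refine ⟨existsUnique_BPBP p R, fun S hh => ?_, ?_⟩
  · exact (main_theorem hB hh).2
  · intro _ hT hh κ g hκ d hd hp ⟨b, c, hc, hb, ht⟩
    exact exists_V4_of_pfacts hp (Vale.Agent.P257.X.pfacts hp) hR hB hh hT hκ hd b c hc hb ht
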