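import Vale.Agent.P257.Z.All

/-! The Smith-Toda complex `V(4)` exists at every prime `p ≥ 11`. -/

open MvPolynomial TensorProduct CategoryTheory MonoidalCategory Limits Pretriangulated
  Vale.Agent.P257.S Vale.Agent.P257.Z

universe v u

/-- Let `p ≥ 11` be a prime, and let `T` be a model of the stable homotopy category, with
`BP`-homology `h` (values in the graded comodules `C`), its external product `κ`, and the
multiplicative Adams-Novikov spectral sequence `d`. By Toda's theorem, `d_r(b^(p-1) α_1) = c β_1^(p^2-p+1)`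
for `r = 2 (p - 1)^2 + 1`, `b = β_(p/p)` and some `c` prime to `p`. Then a Smith-Toda complex `V(4)`
exists at `p`. -/
theorem Vale.Agent.Results.P257.VFour.result (p : ℕ) [Fact p.Prime] (hp : 11 ≤ p)
    (R : Type) [CommRing R]
    [(Ideal.span {(p : ℤ)}).IsPrime] [IsLocalization.AtPrime R (Ideal.span {(p : ℤ)})]
    (B : BPBP p (MvPolynomial ℕ R)) (hB : B.v = gen (p : R))
    (T : Type u) [Category.{v} T] [HasZeroObject T] [Preadditive T]
    [HasShift T ℤ] [∀ n : ℤ, (shiftFunctor T n).Additive] [Pretriangulated T] [IsTriangulated T]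
    [HasCountableCoproducts T] [MonoidalCategory T] (hT : IsExactTensor T)
    (h : T ⥤ ModuleCat.{0} (MvPolynomial ℕ R)) [h.IsHomological]
    [PreservesColimitsOfShape (Discrete ℕ) h] (C : ∀ X, Comod B (h.obj X))
    (hh : IsBPHomology (𝟙_ T) h C)
    (κ : ∀ X Y, h.obj X → h.obj Y → h.obj (X ⊗ Y)) (g : h.obj (𝟙_ T)) (hκ : IsProduct h C κ g)
    (d : ∀ X : T, ℕ → ℕ → ℤ → MvPolynomial (ℕ × ℕ) (MvPolynomial ℕ R) ⊗[MvPolynomial ℕ R] h.obj X →
      MvPolynomial (ℕ × ℕ) (MvPolynomial ℕ R) ⊗[MvPolynomial ℕ R] h.obj X → Prop)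
    (hd : IsANSS h C κ (IsFin p) d)
    (b : MvPolynomial (ℕ × ℕ) (MvPolynomial ℕ R))
    (hb : IsCocycle (C (𝟙_ T)) 2 (p ^ 2 * vdeg p 1) (b ⊗ₜ g)) (c : ℤ) (hc : ¬ (p : ℤ) ∣ c)
    (toda : d (𝟙_ T) (2 * (p - 1) ^ 2 + 1) (2 * p - 1) ((p ^ 3 - p ^ 2 + 1) * vdeg p 1)
      ((pow B 2 b (p - 1) * X (2 * (p - 1), 0)) ⊗ₜ g)
      ((c • pow B 2 (b₁ p _) (p ^ 2 - p + 1)) ⊗ₜ g)) :
    ∃ (X : T) (x : h.obj X), IsFin p X ∧ IsCyclic (C X) 5 0 x :=
  exists_V4 hp hB hh hT hκ hd b c hc hb toda
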